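import Vale.Agent.P284.H608.K.App
import Vale.Agent.P284.H212.Cont
import Vale.Agent.P284.H174.GoodD
import Vale.Agent.P284.H837.Br0

/-!
# P284 (helper291), theorem K, K8a: sheets and transition maps
-/

open scoped Manifold ContDiff Topology ComplexOrder
open Filter Set Metric

noncomputable section

namespace Vale.Agent.P284.H291.K

open Vale.Agent.P272.K Vale.Agent.P284.H573 Vale.Agent.P284.H619 Vale.Agent.P284.H894
  Vale.Agent.P284.H894.G Vale.Agent.P284.H837 Vale.Agent.P284.H174 Vale.Agent.P284.H174.GD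
  Vale.Agent.P284.H212 Vale.Agent.P284.H395

/-- the standing data -/
structure Dt {n R q : ℕ} (m : ℕ) (Γ : Type) {X E : Type} [TopologicalSpace X]
    [ChartedSpace (Cm n) X] [TopologicalSpace E] [Group Γ] [MulAction Γ E] {H : Type}
    [NormedAddCommGroup H] [InnerProductSpace ℂ H] (p : E → X)
    (v : E → Chart n X → (Fin R → Cm n) → H) (F : E → Cm q) : Prop where
  hR : 1 ≤ R
  hm : 1 ≤ m
  gal : IsGalois Γ p
  hv : HForm n R m p H v
  eqv : Eqv Γ p v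
  hF : ∀ (y : E) (e : Chart n X), At e (p y) → ∃ f : Cm n → Cm q,
      (∀ᶠ y' in 𝓝 y, F y' = f (e (p y'))) ∧ AnalyticAt ℂ f (e (p y))
  per : ∀ g : Γ, ∃ f : Cm q → Cm q, (∀ x, AnalyticAt ℂ f x) ∧ ∀ y, F (g • y) = f (F y)

variable {n R q m : ℕ} {X E Γ : Type} [TopologicalSpace X] [ChartedSpace (Cm n) X]
  [TopologicalSpace E] [Group Γ] [MulAction Γ E] {H : Type} [NormedAddCommGroup H]
  [InnerProductSpace ℂ H] {p : E → X} {v : E → Chart n X → (Fin R → Cm n) → H} {F : E → Cm q}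
  {γ : Cm R → H} {t : Cm R → Cm q}

namespace Dt

variable (D : Dt m Γ p v F)
include D

lemma p_smul (g : Γ) (y : E) : p (g • y) = p y := ((D.gal.orb y (g • y)).2 ⟨g, rfl⟩).symm

lemma map_smul_nhds (g : Γ) (y : E) : map (fun y' => g • y') (𝓝 y) = 𝓝 (g • y) := by
  have h1 : Tendsto (fun y' : E => g • y') (𝓝 y) (𝓝 (g • y)) := (D.gal.cont g).tendsto y
  have h2 : Tendsto (fun y' : E => g⁻¹ • y') (𝓝 (g • y)) (𝓝 y) := by
    have := (D.gal.cont g⁻¹).tendsto (g • y)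
    rwa [inv_smul_smul] at this
  refine le_antisymm h1 ?_
  have h3 := Filter.map_mono (m := fun y' : E => g • y') h2
  rw [Filter.map_map] at h3
  have h4 : ((fun y' : E => g • y') ∘ fun y' : E => g⁻¹ • y') = id := by
    funext y'
    simp
  rwa [h4, Filter.map_id] at h3

end Dt

/-- `y` lies on the sheet, with the map `β` in the chart `e` -/
structure ShB (p : E → X) (v : E → Chart n X → (Fin R → Cm n) → H) (F : E → Cm q) (γ : Cm R → H)
    (t : Cm R → Cm q) (y : E) (e : Chart n X) (β : Cm n → Cm R) : Prop where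
  mem : At e (p y)
  an : AnalyticAt ℂ β (e (p y))
  ev : ∀ᶠ y' in 𝓝 y, (∀ ξ, ∃ a : ℂ, v y' e ξ = a • γ (β (e (p y')))) ∧ F y' = t (β (e (p y')))

lemma sh0_iff {y : E} {x : Cm R} : Sh0 p v F γ t y x ↔
    ∃ e β, ShB p v F γ t y e β ∧ β (e (p y)) = x :=
  ⟨fun ⟨e, β, h1, h2, h3, h4⟩ => ⟨e, β, ⟨h1, h2, h4⟩, h3⟩,
    fun ⟨e, β, ⟨h1, h2, h4⟩, h3⟩ => ⟨e, β, h1, h2, h3, h4⟩⟩

lemma ShB.sh0 {y : E} {e : Chart n X} {β : Cm n → Cm R} (h : ShB p v F γ t y e β) :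
    Sh0 p v F γ t y (β (e (p y))) := ⟨e, β, h.mem, h.an, rfl, h.ev⟩

lemma ShB.eventually {y : E} {e : Chart n X} {β : Cm n → Cm R} (h : ShB p v F γ t y e β)
    (hp : IsCoveringMap p) : ∀ᶠ y' in 𝓝 y, ShB p v F γ t y' e β := by
  filter_upwards [at_ev hp h.mem, (tendsto_ep hp h.mem).eventually h.an.eventually_analyticAt,
    h.ev.eventually_nhds] with y' h1 h2 h3
  exact ⟨h1, h2, h3⟩

lemma ShB.cont {y : E} {e : Chart n X} {β : Cm n → Cm R} (h : ShB p v F γ t y e β)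
    (hp : IsCoveringMap p) : ContinuousAt (fun y' => β (e (p y'))) y :=
  ContinuousAt.comp (g := β) h.an.continuousAt (tendsto_ep hp h.mem)

/-- change of the chart -/
lemma ShB.chg [IsManifold 𝓘(ℂ, Cm n) ω X] (hv : HForm n R m p H v) (hp : IsCoveringMap p) {y : E}
    {e e' : Chart n X} {β : Cm n → Cm R} (h : ShB p v F γ t y e' β) (he : At e (p y)) :
    ShB p v F γ t y e (fun z => β (e' (e.symm z))) := by
  have h2 : AnalyticAt ℂ (fun z => e' (e.symm z)) (e (p y)) := (transition he h.mem).analyticAt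
  have h3 : e' (e.symm (e (p y))) = e' (p y) := by rw [he.left_inv]
  refine ⟨he, ?_, ?_⟩
  · refine AnalyticAt.fun_comp (g := β) ?_ h2
    rw [h3]
    exact h.an
  · filter_upwards [h.ev, at_ev hp he, at_ev hp h.mem] with y' k1 k2 k3
    rw [k2.left_inv]
    refine ⟨fun ξ => ?_, k1.2⟩
    rw [hv.change y' e e' k2 k3]
    exact k1.1 _

/-- `v` and `F` only matter near the point -/
lemma Sh0.congr_smul (D : Dt m Γ p v F) {g g' : Γ} {y : E} {x : Cm R}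
    (hv : ∀ y e, At e (p y) → ∀ ξ, v (g • y) e ξ = v (g' • y) e ξ)
    (hF : ∀ y, F (g • y) = F (g' • y)) (h : Sh0 p v F γ t (g • y) x) :
    Sh0 p v F γ t (g' • y) x := by
  obtain ⟨e, β, h1, h2, h3, h4⟩ := h
  rw [D.p_smul] at h1 h2 h3
  refine ⟨e, β, by rwa [D.p_smul], by rwa [D.p_smul], by rwa [D.p_smul], ?_⟩
  rw [← D.map_smul_nhds, eventually_map] at h4 ⊢
  filter_upwards [h4, at_ev D.gal.cov h1] with y' k1 k2
  rw [D.p_smul] at k1 ⊢
  rw [← hF]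
  exact ⟨fun ξ => by rw [← hv y' e k2]; exact k1.1 ξ, k1.2⟩

/-- the transition map of the sheet for the isometry `U` and the transformation `f` -/
def Tr (γ : Cm R → H) (t : Cm R → Cm q) (U : H →ₗᵢ[ℂ] H) (f : Cm q → Cm q) (z z' : Cm R) : Prop :=
  ∃ φ : Cm R → Cm R, AnalyticAt ℂ φ z ∧ φ z = z' ∧
    ∀ᶠ w in 𝓝 z, (∃ a : ℂ, U (γ w) = a • γ (φ w)) ∧ t (φ w) = f (t w)

/-- `U` is the isometry of `g` -/
def IsU (p : E → X) (v : E → Chart n X → (Fin R → Cm n) → H) (g : Γ) (U : H →ₗᵢ[ℂ] H) : Prop :=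
  ∀ y e, At e (p y) → ∀ ξ, v (g • y) e ξ = U (v y e ξ)

/-- the translates of the points of the sheet lie on the sheet -/
lemma sh0_of_tr (D : Dt m Γ p v F) {g : Γ} {U : H →ₗᵢ[ℂ] H} (hU : IsU p v g U)
    {f : Cm q → Cm q} (hf : ∀ y, F (g • y) = f (F y)) {z z' : Cm R} (h : Tr γ t U f z z') {y : E} (hy : Sh0 p v F γ t y z) : Sh0 p v F γ t (g • y) z' := by
  obtain ⟨φ, hφ, hφz, hev⟩ := h
  obtain ⟨e, β, h1, h2, h3, h4⟩ := hy
  have hB : ShB p v F γ t y e β := ⟨h1, h2, h4⟩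
  have hc := hB.cont D.gal.cov
  have ht : Tendsto (fun y' => β (e (p y'))) (𝓝 y) (𝓝 z) := by
    have := hc.tendsto
    rwa [h3] at this
  refine ⟨e, fun w => φ (β w), by rwa [D.p_smul], ?_, ?_, ?_⟩
  · rw [D.p_smul]
    refine AnalyticAt.fun_comp (g := φ) ?_ h2
    rwa [h3]
  · rw [D.p_smul]
    show φ (β (e (p y))) = z'
    rw [h3, hφz]
  · rw [← D.map_smul_nhds, eventually_map]
    filter_upwards [h4, at_ev D.gal.cov h1, ht.eventually hev] with y' k1 k2 k3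
    rw [D.p_smul]
    obtain ⟨⟨a, ha⟩, k4⟩ := k3
    refine ⟨fun ξ => ?_, ?_⟩
    · obtain ⟨a', ha'⟩ := k1.1 ξ
      refine ⟨a' * a, ?_⟩
      rw [hU _ _ k2, ha', map_smul, ha, smul_smul]
    · rw [hf, k1.2, k4]

omit [Group Γ] [MulAction Γ E] in
lemma v_ev_ne (hv : HForm n R m p H v) (hp : IsCoveringMap p) {y : E} {e : Chart n X} (he : At e (p y)) {ξ : Fin R → Cm n}
    (h : v y e ξ ≠ 0) : ∀ᶠ y' in 𝓝 y, v y' e ξ ≠ 0 := by
  obtain ⟨G, hG, hev⟩ := hv.hol y e he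
  have h0 := hev.self_of_nhds ξ
  have h1 : ContinuousAt (fun y' => G (e (p y'), ξ)) y := by
    refine ContinuousAt.comp (g := G) (f := fun y' => (e (p y'), ξ)) (hG ξ).continuousAt ?_
    exact ContinuousAt.prodMk (tendsto_ep hp he) continuousAt_const
  have h2 : G (e (p y), ξ) ≠ 0 := by rw [← h0]; exact h
  filter_upwards [hev, h1.eventually_ne h2] with y' k1 k2
  rw [k1]
  exact k2

/-- the transition map from one point of the sheet where `β` is open -/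
lemma tr_of_sh0 [CompleteSpace H] [IsManifold 𝓘(ℂ, Cm n) ω X] (D : Dt m Γ p v F) {g : Γ}
    {U : H →ₗᵢ[ℂ] H} (hU : IsU p v g U) {f : Cm q → Cm q} (hf : ∀ y, F (g • y) = f (F y))
    {y : E} {e : Chart n X} {β : Cm n → Cm R} (h : ShB p v F γ t y e β) (hop : map (fun y' => β (e (p y'))) (𝓝 y) = 𝓝 (β (e (p y))))
    (hγ : AnalyticAt ℂ γ (β (e (p y)))) {ξ : Fin R → Cm n} (hξ : v y e ξ ≠ 0) {z' : Cm R}
    (h' : Sh0 p v F γ t (g • y) z') (hγ' : AnalyticAt ℂ γ z') (hi : ImmAt γ z') :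
    Tr γ t U f (β (e (p y))) z' := by
  obtain ⟨e₁, β₁, hB₁, hz'⟩ := sh0_iff.1 h'
  have hey : At e (p (g • y)) := by rw [D.p_smul]; exact h.mem
  have hB := hB₁.chg D.hv D.gal.cov hey
  set β' : Cm n → Cm R := fun z => β₁ (e₁ (e.symm z)) with hβ'
  have hβ'z : β' (e (p y)) = z' := by
    rw [hβ', ← hz', D.p_smul]
    show β₁ (e₁ (e.symm (e (p y)))) = _
    rw [h.mem.left_inv]
  obtain ⟨C, -⟩ := exists_pc hγ' hi one_pos
  have hev := hB.ev
  rw [← D.map_smul_nhds, eventually_map] at hev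
  have hcβ' : Tendsto (fun y' => β' (e (p y'))) (𝓝 y) (𝓝 z') := by
    have h1 := (hB.an.continuousAt).tendsto
    rw [D.p_smul, hβ'z] at h1
    exact h1.comp (tendsto_ep D.gal.cov h.mem)
  have key : ∀ᶠ y' in 𝓝 y, (∃ a : ℂ, a ≠ 0 ∧ U (γ (β (e (p y')))) = a • γ (β' (e (p y')))) ∧
      β' (e (p y')) ∈ ball z' C.r₁ ∧ t (β' (e (p y'))) = f (t (β (e (p y')))) := by
    filter_upwards [hev, h.ev, at_ev D.gal.cov h.mem, v_ev_ne D.hv D.gal.cov h.mem hξ,
      hcβ'.eventually (ball_mem_nhds z' C.r₁_pos)] with y' k1 k2 k3 k4 k5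
    rw [D.p_smul] at k1
    obtain ⟨a, ha⟩ := k2.1 ξ
    obtain ⟨a', ha'⟩ := k1.1 ξ
    rw [hU _ _ k3] at ha'
    have ha0 : a ≠ 0 := by
      rintro rfl
      rw [zero_smul] at ha
      exact k4 ha
    have ha'0 : a' ≠ 0 := by
      rintro rfl
      rw [zero_smul] at ha'
      exact k4 (U.injective (by rw [ha', map_zero]))
    refine ⟨⟨a⁻¹ * a', mul_ne_zero (inv_ne_zero ha0) ha'0, ?_⟩, k5, ?_⟩
    · rw [mul_smul, ← ha', ha, map_smul, inv_smul_smul₀ ha0]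
    · rw [← k1.2, hf, k2.2]
  obtain ⟨⟨a₀, ha₀, ha₀'⟩, hm₀, -⟩ := key.self_of_nhds
  have hdom := C.g_of hm₀ ha₀ ha₀'
  refine ⟨fun w => C.g (C.P (U (γ w))), ?_, ?_, ?_⟩
  · refine AnalyticAt.fun_comp (g := fun x => C.g (C.P x)) (f := fun w => U (γ w))
      (C.gP_an hdom.1) ?_
    exact (U.toContinuousLinearMap.analyticAt _).comp hγ
  · show C.g (C.P (U (γ (β (e (p y)))))) = z'
    rw [hdom.2.1, hβ'z]
  · rw [← hop, eventually_map]
    filter_upwards [key] with y' ⟨⟨a, ha, ha'⟩, k1, k2⟩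
    have k3 := C.g_of k1 ha ha'
    refine ⟨⟨a, ?_⟩, ?_⟩
    · rw [k3.2.1]
      exact ha'
    · rw [k3.2.1]
      exact k2

end Vale.Agent.P284.H291.K
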