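import Vale.Agent.P284.H291.K.A1

/-!
# P284 (helper291), theorem K, K8a: at good points of the sheet, the coordinate map is open
-/

open scoped Manifold ContDiff Topology ComplexOrder
open Filter Set Metric

noncomputable section

namespace Vale.Agent.P284.H291.K

open Vale.Agent.P272.K Vale.Agent.P284.H573 Vale.Agent.P284.H619 Vale.Agent.P284.H894
  Vale.Agent.P284.H894.G Vale.Agent.P284.H837 Vale.Agent.P284.H174 Vale.Agent.P284.H174.GD
  Vale.Agent.P284.H212 Vale.Agent.P284.H395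

variable {n R q m : ℕ} {X E Γ : Type} [TopologicalSpace X] [ChartedSpace (Cm n) X]
  [TopologicalSpace E] [Group Γ] [MulAction Γ E] {H : Type} [NormedAddCommGroup H]
  [InnerProductSpace ℂ H] {p : E → X} {v : E → Chart n X → (Fin R → Cm n) → H} {F : E → Cm q}
  {γ : Cm R → H} {t : Cm R → Cm q}

/-- a normal form has a frame with determinant `1` -/
lemma exists_fr {b : Cm n → Cm R} {z₀ : Cm n} (hs : Function.Surjective (fderiv ℂ b z₀)) :
    ∃ ξ₀ : Fin R → Cm n, Jd b z₀ ξ₀ = 1 := by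
  have hξ : ∀ j : Fin R, ∃ x, fderiv ℂ b z₀ x = Pi.single j 1 := fun j => hs _
  choose ξ₀ hξ₀ using hξ
  refine ⟨ξ₀, ?_⟩
  unfold Jd
  have : (Matrix.of fun i a => fderiv ℂ b z₀ (ξ₀ a) i) = (1 : Matrix (Fin R) (Fin R) ℂ) := by
    ext i a
    rw [Matrix.of_apply, hξ₀, Matrix.one_apply, Pi.single_apply]
  rw [this, Matrix.det_one]

/-- at good points of the sheet, the map `β` is a submersion -/
theorem surj_of_good [CompleteSpace H] (hp : IsCoveringMap p)
    {y : E} {e : Chart n X} {β b : Cm n → Cm R} {γ' : Cm R → H}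
    (h : ShB p v F γ t y e β) (hg : IsNF m p v y e b γ')
    (hγ : AnalyticAt ℂ γ (β (e (p y)))) (hγ0 : γ (β (e (p y))) ≠ 0) :
    Function.Surjective (fderiv ℂ β (e (p y))) := by
  set z₀ := e (p y) with hz₀
  obtain ⟨ξ₀, hJ0⟩ := exists_fr hg.bsurj
  rw [← hz₀] at hJ0
  set A' : Cm n → ℂ := fun z => Jd b z ξ₀ ^ m with hA'
  have hA'a : AnalyticAt ℂ A' z₀ := (jd_an hg.ban ξ₀).pow m
  set V : Cm n → H := fun z => A' z • γ' (b z) with hV
  have hγb : AnalyticAt ℂ (fun z => γ' (b z)) z₀ := AnalyticAt.fun_comp (g := γ') hg.γan hg.ban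
  have hVa : AnalyticAt ℂ V z₀ := hA'a.smul hγb
  have hV0 : V z₀ = γ' (b z₀) := by
    simp only [hV, hA', hJ0, one_pow, one_smul]
  -- the functional
  set l : H →L[ℂ] ℂ := innerSL ℂ (γ (β z₀)) with hl
  have hl0 : l (γ (β z₀)) ≠ 0 := by
    rw [hl, innerSL_apply_apply]
    exact inner_self_ne_zero.2 hγ0
  have hγβ : AnalyticAt ℂ (fun z => γ (β z)) z₀ := AnalyticAt.fun_comp (g := γ) hγ h.an
  have hlγ : AnalyticAt ℂ (fun z => l (γ (β z))) z₀ := (l.analyticAt _).comp hγβ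
  set A : Cm n → ℂ := fun z => l (V z) / l (γ (β z)) with hA
  have hAa : AnalyticAt ℂ A z₀ := ((l.analyticAt _).comp hVa).div hlγ hl0
  have hev : ∀ᶠ z in 𝓝 z₀, V z = A z • γ (β z) := by
    rw [← ev_iff hp h.mem]
    have h1 : ∀ᶠ y' in 𝓝 y, l (γ (β (e (p y')))) ≠ 0 :=
      (tendsto_ep hp h.mem).eventually (hlγ.continuousAt.eventually_ne hl0)
    filter_upwards [h.ev, hg.nf, h1] with y' k1 k2 k3
    obtain ⟨a, ha⟩ := k1.1 ξ₀
    have k4 : V (e (p y')) = a • γ (β (e (p y'))) := by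
      rw [← ha, k2]
      rfl
    have k5 : A (e (p y')) = a := by
      simp only [hA, k4, map_smul, smul_eq_mul]
      exact mul_div_cancel_right₀ a k3
    rw [k5, k4]
  have h0 := hev.self_of_nhds
  have hA0 : A z₀ ≠ 0 := by
    intro h1
    rw [h1, zero_smul, hV0] at h0
    exact hg.imm.1 h0
  -- the kernels
  have hker : ∀ x, fderiv ℂ β z₀ x = 0 → fderiv ℂ b z₀ x = 0 := by
    intro x hx
    have hd1 : HasFDerivAt (fun z => γ' (b z)) ((fderiv ℂ γ' (b z₀)).comp (fderiv ℂ b z₀)) z₀ :=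
      hg.γan.differentiableAt.hasFDerivAt.comp z₀ hg.ban.differentiableAt.hasFDerivAt
    have hd2 : HasFDerivAt (fun z => γ (β z)) ((fderiv ℂ γ (β z₀)).comp (fderiv ℂ β z₀)) z₀ :=
      hγ.differentiableAt.hasFDerivAt.comp z₀ h.an.differentiableAt.hasFDerivAt
    have hd3 := hA'a.differentiableAt.hasFDerivAt.smul hd1
    have hd4 := hAa.differentiableAt.hasFDerivAt.smul hd2
    have hd5 := (hd3.congr_of_eventuallyEq (hev.mono fun z hz => hz.symm)).unique hd4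
    have hd6 := congrArg (fun L : Cm n →L[ℂ] H => L x) hd5
    simp only [add_apply, smul_apply, ContinuousLinearMap.smulRight_apply,
      ContinuousLinearMap.comp_apply, hx, map_zero, smul_zero, zero_add] at hd6
    have hA'1 : A' z₀ = 1 := by simp only [hA', hJ0, one_pow]
    rw [hA'1, one_smul] at hd6
    have h2 : γ (β z₀) = (A z₀)⁻¹ • γ' (b z₀) := by
      rw [← hV0, h0, inv_smul_smul₀ hA0]
    rw [h2, smul_smul] at hd6
    refine hg.imm.2 _ (fderiv ℂ A z₀ x * (A z₀)⁻¹ - fderiv ℂ A' z₀ x) ?_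
    rw [sub_smul, ← hd6, add_sub_cancel_right]
  have hle : LinearMap.ker (fderiv ℂ β z₀ : Cm n →ₗ[ℂ] Cm R) ≤
      LinearMap.ker (fderiv ℂ b z₀ : Cm n →ₗ[ℂ] Cm R) := fun x hx => hker x hx
  have e1 := LinearMap.finrank_range_add_finrank_ker (fderiv ℂ β z₀ : Cm n →ₗ[ℂ] Cm R)
  have e2 := LinearMap.finrank_range_add_finrank_ker (fderiv ℂ b z₀ : Cm n →ₗ[ℂ] Cm R)
  have e3 := Submodule.finrank_mono hle
  have e4 : LinearMap.range (fderiv ℂ b z₀ : Cm n →ₗ[ℂ] Cm R) = ⊤ :=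
    LinearMap.range_eq_top.2 hg.bsurj
  have e5 : Module.finrank ℂ (LinearMap.range (fderiv ℂ b z₀ : Cm n →ₗ[ℂ] Cm R)) = R := by
    rw [e4, finrank_top]
    simp
  have e6 : LinearMap.range (fderiv ℂ β z₀ : Cm n →ₗ[ℂ] Cm R) = ⊤ := by
    refine Submodule.eq_top_of_finrank_eq (le_antisymm (Submodule.finrank_le _) ?_)
    have : Module.finrank ℂ (Cm R) = R := by simp
    omega
  exact LinearMap.range_eq_top.1 e6

/-- a submersion is open -/
lemma open_of_surj (hp : IsCoveringMap p) {y : E} {e : Chart n X} (he : At e (p y))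
    {β : Cm n → Cm R} (hb : AnalyticAt ℂ β (e (p y)))
    (hs : Function.Surjective (fderiv ℂ β (e (p y)))) :
    map (fun y' => β (e (p y'))) (𝓝 y) = 𝓝 (β (e (p y))) := by
  have h1 : map β (𝓝 (e (p y))) = 𝓝 (β (e (p y))) :=
    hb.hasStrictFDerivAt.map_nhds_eq_of_surj (LinearMap.range_eq_top.2 hs)
  rw [← h1, ← map_ep hp he, map_map]
  rfl

/-- `v` is nonzero at good points -/
lemma IsNF.ne {y : E} {e : Chart n X} {b : Cm n → Cm R} (hg : IsNF m p v y e b γ) :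
    ∃ ξ, v y e ξ ≠ 0 := by
  obtain ⟨ξ₀, hJ0⟩ := exists_fr hg.bsurj
  refine ⟨ξ₀, ?_⟩
  rw [hg.nf.self_of_nhds ξ₀]
  show Jd b (e (p y)) ξ₀ ^ m • γ (b (e (p y))) ≠ 0
  rw [hJ0, one_pow, one_smul]
  exact hg.imm.1

/-- a point with the normal form lies on the sheet -/
lemma NFF.shB {y : E} {e : Chart n X} {b : Cm n → Cm R} (h : NFF m p v F y e b γ t) :
    ShB p v F γ t y e b := by
  refine ⟨h.nf.mem, h.nf.ban, ?_⟩
  filter_upwards [h.nf.nf, h.eq] with y' k1 k2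
  exact ⟨fun ξ => ⟨_, k1 ξ⟩, k2⟩

end Vale.Agent.P284.H291.K
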