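import Vale.Agent.P284.H291.K.A2

/-!
# P284 (helper291), theorem K, K8a: generic points; choice of the ball
-/

open scoped Manifold ContDiff Topology ComplexOrder
open Filter Set Metric

noncomputable section

namespace Vale.Agent.P284.H291.K

open Vale.Agent.P272.K Vale.Agent.P284.H573 Vale.Agent.P284.H619 Vale.Agent.P284.H894
  Vale.Agent.P284.H894.G Vale.Agent.P284.H837 Vale.Agent.P284.H174 Vale.Agent.P284.H174.GD
  Vale.Agent.P284.H212 Vale.Agent.P284.H395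

variable {n R q m : ℕ} {X E Γ : Type} [TopologicalSpace X] [ChartedSpace (Cm n) X]
  [TopologicalSpace E] [Group Γ] [MulAction Γ E] {H : Type} [NormedAddCommGroup H]
  [InnerProductSpace ℂ H] {p : E → X} {v : E → Chart n X → (Fin R → Cm n) → H} {F : E → Cm q}
  {γ : Cm R → H} {t : Cm R → Cm q}

/-- transition maps near generic points -/
theorem gen [CompleteSpace H] [IsManifold 𝓘(ℂ, Cm n) ω X] (D : Dt m Γ p v F) {g : Γ}
    {U : H →ₗᵢ[ℂ] H} (hU : IsU p v g U) {f : Cm q → Cm q} (hf : ∀ y, F (g • y) = f (F y))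
    (hgood : ∀ y, ∃ᶠ y' in 𝓝 y, GoodAt p R m v y')
    {y : E} {x x' : Cm R} (h : Sh0 p v F γ t y x) (h' : Sh0 p v F γ t (g • y) x')
    {N N' : Set (Cm R)} (hN : N ∈ 𝓝 x) (hN' : N' ∈ 𝓝 x')
    (hγ : ∀ᶠ z in 𝓝 x, AnalyticAt ℂ γ z ∧ γ z ≠ 0)
    (hγ' : ∀ᶠ z in 𝓝 x', AnalyticAt ℂ γ z ∧ ImmAt γ z) :
    ∃ z ∈ N, ∃ z' ∈ N', Tr γ t U f z z' := by
  obtain ⟨e, β, hB, rfl⟩ := sh0_iff.1 h
  obtain ⟨e₁, β₁, hB₁, rfl⟩ := sh0_iff.1 h'
  have hc₁ : Tendsto (fun y' => β₁ (e₁ (p y'))) (𝓝 y) (𝓝 (β₁ (e₁ (p (g • y))))) := by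
    have h1 := (hB₁.cont D.gal.cov).tendsto
    rw [← D.map_smul_nhds, tendsto_map'_iff] at h1
    refine h1.congr fun y' => ?_
    show β₁ (e₁ (p (g • y'))) = β₁ (e₁ (p y'))
    rw [D.p_smul]
  have hev₁ : ∀ᶠ y' in 𝓝 y, ShB p v F γ t (g • y') e₁ β₁ := by
    have h1 := hB₁.eventually D.gal.cov
    rwa [← D.map_smul_nhds, eventually_map] at h1
  have hc := (hB.cont D.gal.cov).tendsto
  obtain ⟨y', hy', k1, k2, k3, k4, k5, k6, k7⟩ := ((hgood y).and_eventually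
    ((hB.eventually D.gal.cov).and (hev₁.and ((hc.eventually hγ).and
    ((hc₁.eventually hγ').and ((hc.eventually hN).and ((hc₁.eventually hN').and
      (at_ev D.gal.cov hB.mem)))))))).exists
  obtain ⟨e₂, b, γ', hnf⟩ := hy'
  have hnf' := nf_chg D.hv D.gal.cov hnf k7
  have hs := surj_of_good D.gal.cov k1 hnf' k3.1 k3.2
  have hop := open_of_surj D.gal.cov k7 k1.an hs
  obtain ⟨ξ, hξ⟩ := IsNF.ne hnf'
  refine ⟨β (e (p y')), k5, β₁ (e₁ (p y')), k6, ?_⟩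
  refine tr_of_sh0 D hU hf k1 hop k3.1 hξ ?_ k4.1 k4.2
  have h2 := k2.sh0
  rwa [D.p_smul] at h2

/-- one step of the choice of the ball -/
lemma select1 {b₀ : Cm R} (C : PC γ b₀) (U : H →ₗᵢ[ℂ] H) (k : Cm q → Cm q) {z₀ : Cm R} {r₀ : ℝ}
    (hr₀ : 0 < r₀) (hsub : ball z₀ r₀ ⊆ ball b₀ C.r₁) :
    ∃ z₁ r₁, 0 < r₁ ∧ ball z₁ r₁ ⊆ ball z₀ r₀ ∧
      ((∀ z ∈ ball z₁ r₁, ∀ z' ∈ ball z₁ r₁, ¬ Tr γ t U k z z') ∨
      ∀ z ∈ ball z₁ r₁, ∃ a : ℂ, U (γ z) = a • γ z) := by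
  by_cases hex : ∃ z ∈ ball z₀ r₀, ∃ z' ∈ ball z₀ r₀, Tr γ t U k z z'
  swap
  · refine ⟨z₀, r₀, hr₀, subset_rfl, Or.inl fun z hz z' hz' h => hex ⟨z, hz, z', hz', h⟩⟩
  obtain ⟨z, hz, z', hz', φ, hφ, rfl, hev⟩ := hex
  have hall : ∀ᶠ w in 𝓝 z, w ∈ ball z₀ r₀ ∧ φ w ∈ ball z₀ r₀ ∧ AnalyticAt ℂ φ w ∧
      (∃ a : ℂ, U (γ w) = a • γ (φ w)) ∧ t (φ w) = k (t w) := by
    filter_upwards [isOpen_ball.mem_nhds hz, hφ.continuousAt.eventually_mem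
      (isOpen_ball.mem_nhds hz'), hφ.eventually_analyticAt, hev] with w k1 k2 k3 k4
    exact ⟨k1, k2, k3, k4⟩
  obtain ⟨ρ, hρ, hb⟩ := Metric.eventually_nhds_iff_ball.1 hall
  by_cases hfix : ∀ w ∈ ball z ρ, φ w = w
  · refine ⟨z, ρ, hρ, fun w hw => (hb w hw).1, Or.inr fun w hw => ?_⟩
    obtain ⟨a, ha⟩ := (hb w hw).2.2.2.1
    rw [hfix w hw] at ha
    exact ⟨a, ha⟩
  push Not at hfix
  obtain ⟨w, hw, hne⟩ := hfix
  have hd : 0 < dist (φ w) w := dist_pos.2 hne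
  have h1 : ∀ᶠ w' in 𝓝 w, w' ∈ ball z ρ ∧ φ w' ∈ ball (φ w) (dist (φ w) w / 2) := by
    filter_upwards [isOpen_ball.mem_nhds hw, (hb w hw).2.2.1.continuousAt.eventually_mem
      (ball_mem_nhds _ (half_pos hd))] with w' k1 k2 using ⟨k1, k2⟩
  obtain ⟨ρ', hρ', hb'⟩ := Metric.eventually_nhds_iff_ball.1 h1
  have hsub' : ball w (min ρ' (dist (φ w) w / 2)) ⊆ ball w ρ' :=
    ball_subset_ball (min_le_left _ _)
  refine ⟨w, min ρ' (dist (φ w) w / 2), lt_min hρ' (half_pos hd),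
    fun w' hw' => (hb w' (hb' w' (hsub' hw')).1).1, Or.inl ?_⟩
  rintro u hu u' hu' ⟨φ', -, rfl, hev'⟩
  obtain ⟨⟨a', ha'⟩, -⟩ := hev'.self_of_nhds
  have hub := hb u (hb' u (hsub' hu)).1
  obtain ⟨a, ha⟩ := hub.2.2.2.1
  have hγu : γ u ≠ 0 := by
    intro h0
    have := C.l₀_ne u (hsub hub.1)
    rw [h0, map_zero] at this
    exact this rfl
  have hUu : U (γ u) ≠ 0 := fun h0 => hγu (U.injective (by rw [h0, map_zero]))
  have ha0 : a ≠ 0 := by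
    rintro rfl
    rw [zero_smul] at ha
    exact hUu ha
  have ha'0 : a' ≠ 0 := by
    rintro rfl
    rw [zero_smul] at ha'
    exact hUu ha'
  have hu'b : φ' u ∈ ball b₀ C.r₁ := hsub (hb _ (hb' _ (hsub' hu')).1).1
  have heq : φ' u = φ u := by
    refine C.inj hu'b (hsub hub.2.1) (a := a'⁻¹ * a) (mul_ne_zero (inv_ne_zero ha'0) ha0) ?_
    rw [mul_smul, ← ha, ha', inv_smul_smul₀ ha'0]
  have h2 : φ u ∈ ball (φ w) (dist (φ w) w / 2) := (hb' u (hsub' hu)).2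
  have h3 : φ u ∈ ball w (dist (φ w) w / 2) := by
    rw [← heq]
    exact ball_subset_ball (min_le_right _ _) hu'
  rw [mem_ball] at h2 h3
  have h4 : dist (φ w) w ≤ dist (φ w) (φ u) + dist (φ u) w := dist_triangle _ _ _
  rw [dist_comm (φ w) (φ u)] at h4
  linarith

/-- **choice of the ball** -/
theorem select {ι : Type*} (T : Finset ι) {b₀ : Cm R} (C : PC γ b₀) (U : ι → H →ₗᵢ[ℂ] H)
    (k : ι → Cm q → Cm q) {z₀ : Cm R} {r₀ : ℝ} (hr₀ : 0 < r₀) (hsub : ball z₀ r₀ ⊆ ball b₀ C.r₁) :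
    ∃ z₁ r₁, 0 < r₁ ∧ ball z₁ r₁ ⊆ ball z₀ r₀ ∧ ∀ a ∈ T,
      ((∀ z ∈ ball z₁ r₁, ∀ z' ∈ ball z₁ r₁, ¬ Tr γ t (U a) (k a) z z') ∨
      ∀ z ∈ ball z₁ r₁, ∃ s : ℂ, U a (γ z) = s • γ z) := by
  classical
  induction T using Finset.induction_on with
  | empty => exact ⟨z₀, r₀, hr₀, subset_rfl, by simp⟩
  | insert a T ha ih =>
    obtain ⟨z₁, r₁, h1, h2, h3⟩ := ih
    obtain ⟨z₂, r₂, k1, k2, k3⟩ := select1 (t := t) C (U a) (k a) h1 (h2.trans hsub)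
    refine ⟨z₂, r₂, k1, k2.trans h2, fun a' ha' => ?_⟩
    rcases Finset.mem_insert.1 ha' with rfl | ha'
    · exact k3
    · rcases h3 a' ha' with h4 | h4
      · exact Or.inl fun z hz z' hz' => h4 z (k2 hz) z' (k2 hz')
      · exact Or.inr fun z hz => h4 z (k2 hz)

end Vale.Agent.P284.H291.K
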