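import Vale.Agent.P284.H291.K.A3

/-!
# P284 (helper291), theorem K, K8a: continuation of the normal form, uniformly in the group element
-/

open scoped Manifold ContDiff Topology ComplexOrder
open Filter Set Metric

noncomputable section

namespace Vale.Agent.P284.H291.K

open Vale.Agent.P272.K Vale.Agent.P284.H573 Vale.Agent.P284.H619 Vale.Agent.P284.H894
  Vale.Agent.P284.H894.G Vale.Agent.P284.H837 Vale.Agent.P284.H174 Vale.Agent.P284.H174.GD
  Vale.Agent.P284.H212 Vale.Agent.P284.H395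

variable {n R q m : ℕ} {X E Γ : Type} [TopologicalSpace X] [ChartedSpace (Cm n) X]
  [TopologicalSpace E] [Group Γ] [MulAction Γ E] {H : Type} [NormedAddCommGroup H]
  [InnerProductSpace ℂ H] {p : E → X} {v : E → Chart n X → (Fin R → Cm n) → H} {F : E → Cm q}
  {γ : Cm R → H} {t : Cm R → Cm q}

/-- the strong sheet: `y` has the normal form with `(γ, t)`, over `x` -/
def Sh1 (m : ℕ) (p : E → X) (v : E → Chart n X → (Fin R → Cm n) → H) (F : E → Cm q)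
    (γ : Cm R → H) (t : Cm R → Cm q) (y : E) (x : Cm R) : Prop :=
  ∃ (e : Chart n X) (b : Cm n → Cm R), NFF m p v F y e b γ t ∧ b (e (p y)) = x

/-- the normal form in another chart -/
lemma nff_chg [IsManifold 𝓘(ℂ, Cm n) ω X] {y : E} {e e' : Chart n X} {b : Cm n → Cm R}
    (h : NFF m p v F y e' b γ t) (hv : HForm n R m p H v) (hp : IsCoveringMap p)
    (he : At e (p y)) : NFF m p v F y e (fun z => b (e' (e.symm z))) γ t := by
  refine ⟨nf_chg hv hp h.nf he, ?_, ?_⟩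
  · simp only [he.left_inv]
    exact h.tan
  · filter_upwards [h.eq, at_ev hp he] with y' h1 h2
    simp only [h2.left_inv]
    exact h1

lemma jd_surj {b : Cm n → Cm R} {z : Cm n} {ξ : Fin R → Cm n} (h : Jd b z ξ ≠ 0) :
    Function.Surjective (fderiv ℂ b z) := by
  intro u
  set A : Matrix (Fin R) (Fin R) ℂ := Matrix.of fun i a => fderiv ℂ b z (ξ a) i with hA
  have hu : IsUnit A.det := isUnit_iff_ne_zero.2 h
  refine ⟨∑ a, (A⁻¹.mulVec u) a • ξ a, ?_⟩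
  have h1 : fderiv ℂ b z (∑ a, (A⁻¹.mulVec u) a • ξ a) = A.mulVec (A⁻¹.mulVec u) := by
    rw [map_sum]
    funext i
    simp only [Finset.sum_apply, map_smul, Pi.smul_apply, smul_eq_mul, Matrix.mulVec, dotProduct]
    refine Finset.sum_congr rfl fun a _ => ?_
    rw [mul_comm]
    rfl
  rw [h1, Matrix.mulVec_mulVec, Matrix.mul_nonsing_inv _ hu, Matrix.one_mulVec]

/-- **continuation of the normal form, uniformly in the group element** -/
theorem cont_unif [CompleteSpace H] [IsManifold 𝓘(ℂ, Cm n) ω X] (D : Dt m Γ p v F) {y : E}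
    (hNZ : NZ p v y) {x₀ : Cm R} (hγ : AnalyticAt ℂ γ x₀) (hi : ImmAt γ x₀)
    (ht : AnalyticAt ℂ t x₀) {N'' : Set (Cm R)} (hN'' : N'' ∈ 𝓝 x₀) :
    ∃ N ∈ 𝓝 x₀, ∀ᶠ y' in 𝓝 y, ∀ (g : Γ), ∀ x ∈ N, Sh1 m p v F γ t (g • y') x →
      ∃ x'' ∈ N'', Sh1 m p v F γ t (g • y) x'' := by
  have hcov := D.gal.cov
  obtain ⟨e, he, ξ₀, hξ₀⟩ := hNZ
  obtain ⟨ε, hε, f, hf, hfev⟩ := exists_fam D.hv hcov he
  obtain ⟨fF, hFev, hFan⟩ := D.hF y e he
  obtain ⟨R₀, hR₀, htb⟩ := Metric.eventually_nhds_iff_ball.1 ht.eventually_analyticAt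
  obtain ⟨C, hCR⟩ := exists_pc hγ hi hR₀
  set z₀ := e (p y) with hz₀
  set V : Cm n → H := f ξ₀ with hV
  have hVz₀ : V z₀ ≠ 0 := by
    rw [hV, hz₀, ← hfev.self_of_nhds ξ₀]
    exact hξ₀
  have hVn : 0 < ‖V z₀‖ := norm_pos_iff.2 hVz₀
  -- the neighbourhood of `γ x₀`
  have hgx₀ := C.g_of (mem_ball_self C.r₁_pos) one_ne_zero (one_smul ℂ (γ x₀)).symm
  have hN3 : N'' ∩ {x | ImmAt γ x} ∈ 𝓝 x₀ := inter_mem hN'' (hi.eventually hγ)
  have hG : ∀ᶠ h in 𝓝 (γ x₀), C.Dom h ∧ C.g (C.P h) ∈ N'' ∩ {x | ImmAt γ x} := by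
    refine C.dom_nhds.and ?_
    have h1 : ContinuousAt (fun x => C.g (C.P x)) (γ x₀) := (C.gP_an hgx₀.1).continuousAt
    refine h1.eventually_mem ?_
    show N'' ∩ {x | ImmAt γ x} ∈ 𝓝 (C.g (C.P (γ x₀)))
    rw [hgx₀.2.1]
    exact hN3
  obtain ⟨η, hη, hGη⟩ := Metric.eventually_nhds_iff_ball.1 hG
  set M : ℝ := ‖γ x₀‖ + 1 with hM
  have hMpos : 0 < M := by positivity
  have hN : ∀ᶠ x in 𝓝 x₀, ‖γ x - γ x₀‖ < min (η / 2) 1 ∧ x ∈ ball x₀ C.r₁ := by
    refine Filter.Eventually.and ?_ (ball_mem_nhds _ C.r₁_pos)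
    have h1 : Tendsto (fun x => ‖γ x - γ x₀‖) (𝓝 x₀) (𝓝 0) := by
      have := (hγ.continuousAt.sub (continuousAt_const (y := γ x₀))).norm.tendsto
      simpa using this
    exact h1.eventually_lt_const (by positivity)
  set κ : ℝ := min (‖V z₀‖ / 2) (η * ‖V z₀‖ / (16 * M)) with hκ
  have hκpos : 0 < κ := by positivity
  have hδ : ∀ᶠ z in 𝓝 z₀, z ∈ ball z₀ ε ∧ ‖V z - V z₀‖ < κ ∧ AnalyticAt ℂ fF z := by
    refine Filter.Eventually.and (ball_mem_nhds _ hε) (Filter.Eventually.and ?_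
      hFan.eventually_analyticAt)
    have h1 : Tendsto (fun z => ‖V z - V z₀‖) (𝓝 z₀) (𝓝 0) := by
      have h2 : ContinuousAt (fun z => ‖V z - V z₀‖) z₀ :=
        ((hf ξ₀ z₀ (mem_ball_self hε)).continuousAt.sub
          (continuousAt_const (y := V z₀))).norm
      have h3 := h2.tendsto
      rwa [sub_self, norm_zero] at h3
    exact h1.eventually_lt_const hκpos
  obtain ⟨δ, hδpos, hδb⟩ := Metric.eventually_nhds_iff_ball.1 hδ
  have hVne : ∀ z ∈ ball z₀ δ, ‖V z₀‖ / 2 ≤ ‖V z‖ := by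
    intro z hz
    have h1 := (hδb z hz).2.1
    have h2 : ‖V z₀‖ ≤ ‖V z‖ + ‖V z - V z₀‖ := by
      have := norm_sub_le (V z) (V z - V z₀)
      rwa [sub_sub_cancel] at this
    have h3 : κ ≤ ‖V z₀‖ / 2 := min_le_left _ _
    linarith
  refine ⟨_, hN, ?_⟩
  filter_upwards [hfev.eventually_nhds, hFev.eventually_nhds, at_ev hcov he,
    (tendsto_ep hcov he).eventually_mem (ball_mem_nhds _ hδpos)] with y' q1 q2 q3 q4 g x hx hsh
  obtain ⟨hx1, hx2⟩ := hx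
  obtain ⟨U, hU⟩ := D.eqv g
  obtain ⟨fg, hfg, hfgF⟩ := D.per g
  obtain ⟨e₁, β₁, hB₁, hxβ⟩ := hsh
  have hB := nff_chg hB₁ D.hv hcov (e := e) (by rw [D.p_smul]; exact q3)
  set β : Cm n → Cm R := fun z => β₁ (e₁ (e.symm z)) with hβ
  set z' := e (p y') with hz'
  have hβz' : β z' = x := by
    rw [← hxβ, D.p_smul]
    show β₁ (e₁ (e.symm (e (p y')))) = _
    rw [q3.left_inv]
  have hβan : AnalyticAt ℂ β z' := by
    have := hB.nf.ban
    rwa [D.p_smul] at this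
  have hzev : ∀ᶠ z in 𝓝 z', (∀ ξ, U (f ξ z) = Jd β z ξ ^ m • γ (β z)) ∧
      fg (fF z) = t (β z) := by
    rw [← ev_iff hcov q3]
    have h1 := hB.nf.nf.and hB.eq
    rw [← D.map_smul_nhds, eventually_map] at h1
    filter_upwards [h1, q1, q2, at_ev hcov q3] with y'' a1 a2 a3 a4
    rw [D.p_smul] at a1
    refine ⟨fun ξ => ?_, ?_⟩
    · rw [← a2 ξ, ← hU _ _ a4, a1.1]
      rfl
    · rw [← a3, ← hfgF, a1.2]
  obtain ⟨a₀, ha₀⟩ : ∃ a₀ : ℂ, U (V z') = a₀ • γ x := by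
    refine ⟨Jd β z' ξ₀ ^ m, ?_⟩
    rw [← hβz']
    exact hzev.self_of_nhds.1 ξ₀
  have hVz' : 0 < ‖V z'‖ := lt_of_lt_of_le (by positivity) (hVne z' q4)
  have hna : ‖V z'‖ = ‖a₀‖ * ‖γ x‖ := by
    rw [← norm_smul, ← ha₀, U.norm_map]
  have ha₀0 : a₀ ≠ 0 := by
    rintro rfl
    rw [norm_zero, zero_mul] at hna
    exact hVz'.ne' hna
  have hγxM : ‖γ x‖ ≤ M := by
    have h1 : ‖γ x‖ ≤ ‖γ x₀‖ + ‖γ x - γ x₀‖ := by
      have := norm_add_le (γ x₀) (γ x - γ x₀)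
      rwa [add_sub_cancel] at this
    have h2 : ‖γ x - γ x₀‖ < 1 := lt_of_lt_of_le hx1 (min_le_right _ _)
    linarith
  have hdom : ∀ z ∈ ball z₀ δ, C.Dom (U (V z)) ∧ C.g (C.P (U (V z))) ∈ N'' ∩ {x | ImmAt γ x} := by
    intro z hz
    have h1 : a₀⁻¹ • U (V z) ∈ ball (γ x₀) η := by
      rw [mem_ball_iff_norm]
      have h2 : a₀⁻¹ • U (V z) - γ x₀ = a₀⁻¹ • U (V z - V z') + (γ x - γ x₀) := by
        have h3 : a₀⁻¹ • U (V z') = γ x := by rw [ha₀, inv_smul_smul₀ ha₀0]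
        rw [map_sub, smul_sub, h3]
        abel
      rw [h2]
      have h4 : ‖V z - V z'‖ < 2 * κ := by
        have k1 := (hδb z hz).2.1
        have k2 := (hδb z' q4).2.1
        have k3 : ‖V z - V z'‖ ≤ ‖V z - V z₀‖ + ‖V z' - V z₀‖ := by
          have := norm_sub_le (V z - V z₀) (V z' - V z₀)
          rwa [sub_sub_sub_cancel_right] at this
        linarith
      have h5 : ‖a₀⁻¹ • U (V z - V z')‖ ≤ η / 4 := by
        rw [norm_smul, norm_inv, U.norm_map]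
        have k0 : 0 < ‖a₀‖ := norm_pos_iff.2 ha₀0
        rw [inv_mul_le_iff₀ k0]
        have k1 : ‖V z₀‖ / 2 ≤ ‖a₀‖ * M := by
          calc ‖V z₀‖ / 2 ≤ ‖V z'‖ := hVne z' q4
            _ = ‖a₀‖ * ‖γ x‖ := hna
            _ ≤ ‖a₀‖ * M := by gcongr
        have k2 : κ ≤ η * ‖V z₀‖ / (16 * M) := min_le_right _ _
        calc ‖V z - V z'‖ ≤ 2 * κ := h4.le
          _ ≤ 2 * (η * ‖V z₀‖ / (16 * M)) := by linarith
          _ = η * (‖V z₀‖ / 2) / (4 * M) := by field_simp; ring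
          _ ≤ η * (‖a₀‖ * M) / (4 * M) := by gcongr
          _ = ‖a₀‖ * (η / 4) := by field_simp
      calc ‖a₀⁻¹ • U (V z - V z') + (γ x - γ x₀)‖ ≤ ‖a₀⁻¹ • U (V z - V z')‖ + ‖γ x - γ x₀‖ :=
            norm_add_le _ _
        _ ≤ η / 4 + ‖γ x - γ x₀‖ := by gcongr
        _ < η / 4 + η / 2 := by
            have := lt_of_lt_of_le hx1 (min_le_left _ _)
            gcongr
        _ < η := by linarith
    obtain ⟨k1, k2⟩ := hGη _ h1
    rw [C.dom_smul (inv_ne_zero ha₀0)] at k1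
    rw [C.P_smul (inv_ne_zero ha₀0)] at k2
    exact ⟨k1, k2⟩
  set W : Cm n → Cm R := fun z => C.g (C.P (U (V z))) with hW
  have hUf : ∀ ξ, ∀ z ∈ ball z₀ δ, AnalyticAt ℂ (fun z => U (f ξ z)) z := fun ξ z hz =>
    AnalyticAt.fun_comp (g := U) (U.toContinuousLinearMap.analyticAt _) (hf ξ z (hδb z hz).1)
  have hWan : ∀ z ∈ ball z₀ δ, AnalyticAt ℂ W z := fun z hz =>
    AnalyticAt.fun_comp (g := fun x => C.g (C.P x)) (f := fun z => U (V z))
      (C.gP_an (hdom z hz).1) (hUf ξ₀ z hz)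
  have hγW : ∀ z ∈ ball z₀ δ, AnalyticAt ℂ (fun z => γ (W z)) z := fun z hz =>
    AnalyticAt.fun_comp (g := γ) (C.γan _ (C.g_mem _ (hdom z hz).1.2)) (hWan z hz)
  have htW' : ∀ z ∈ ball z₀ δ, AnalyticAt ℂ t (W z) := fun z hz =>
    htb _ (ball_subset_ball hCR (C.g_mem _ (hdom z hz).1.2))
  have htW : ∀ z ∈ ball z₀ δ, AnalyticAt ℂ (fun z => t (W z)) z := fun z hz =>
    AnalyticAt.fun_comp (g := t) (htW' z hz) (hWan z hz)
  have hWβ : ∀ᶠ z in 𝓝 z', W z = β z := by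
    filter_upwards [hzev, isOpen_ball.mem_nhds q4, hβan.continuousAt.eventually_mem
      (isOpen_ball.mem_nhds (show β z' ∈ ball x₀ C.r₁ by rw [hβz']; exact hx2))]
      with z k1 k2 k3
    have ha := k1.1 ξ₀
    have ha0 : Jd β z ξ₀ ^ m ≠ 0 := by
      intro h0
      rw [h0, zero_smul] at ha
      have k4 : V z = 0 := U.injective (by rw [map_zero]; exact ha)
      have k5 := hVne z k2
      rw [k4, norm_zero] at k5
      linarith
    exact (C.g_of k3 ha0 ha).2.1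
  have hpre : IsPreconnected (ball z₀ δ) := (convex_ball z₀ δ).isPreconnected
  have hval : ∀ ξ, ∀ z ∈ ball z₀ δ, U (f ξ z) = Jd W z ξ ^ m • γ (W z) := by
    intro ξ
    refine AnalyticOnNhd.eqOn_of_preconnected_of_eventuallyEq
      (f := fun z => U (f ξ z)) (g := fun z => Jd W z ξ ^ m • γ (W z))
      (fun z hz => hUf ξ z hz) (fun z hz => ?_) hpre q4 ?_
    · exact ((jd_an (hWan z hz) ξ).pow m).smul (hγW z hz)
    · filter_upwards [hzev, hWβ, hWβ.eventually_nhds] with z k1 k2 k3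
      rw [k1.1 ξ, k2]
      have k4 : Jd W z ξ = Jd β z ξ := by
        unfold Jd
        rw [Filter.EventuallyEq.fderiv_eq k3]
      rw [k4]
  have hFval : ∀ z ∈ ball z₀ δ, fg (fF z) = t (W z) := by
    refine AnalyticOnNhd.eqOn_of_preconnected_of_eventuallyEq (f := fun z => fg (fF z))
      (g := fun z => t (W z)) (fun z hz => (hfg _).fun_comp (hδb z hz).2.2)
      (fun z hz => htW z hz) hpre q4 ?_
    filter_upwards [hzev, hWβ] with z k1 k2
    rw [k2]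
    exact k1.2
  have hz₀m : z₀ ∈ ball z₀ δ := mem_ball_self hδpos
  have hpz : e (p (g • y)) = z₀ := by rw [D.p_smul]
  refine ⟨W z₀, (hdom z₀ hz₀m).2.1, e, W, ⟨⟨by rw [D.p_smul]; exact he, ?_, ?_, ?_, ?_, ?_⟩, ?_, ?_⟩, ?_⟩
  · rw [hpz]
    exact hWan z₀ hz₀m
  · rw [hpz]
    refine jd_surj (ξ := ξ₀) fun h0 => ?_
    have h1 := hval ξ₀ z₀ hz₀m
    have hm : m ≠ 0 := by have := D.hm; omega
    rw [h0, zero_pow hm, zero_smul] at h1
    exact hVz₀ (U.injective (by rw [map_zero]; exact h1))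
  · rw [hpz]
    exact C.γan _ (C.g_mem _ (hdom z₀ hz₀m).1.2)
  · rw [hpz]
    exact (hdom z₀ hz₀m).2.2
  · rw [← D.map_smul_nhds, eventually_map]
    filter_upwards [hfev, at_ev hcov he,
      (tendsto_ep hcov he).eventually_mem (ball_mem_nhds _ hδpos)] with y'' k1 k3 k4 ξ
    rw [D.p_smul, hU _ _ k3, k1, hval ξ _ k4]
    rfl
  · rw [hpz]
    exact htW' z₀ hz₀m
  · rw [← D.map_smul_nhds, eventually_map]
    filter_upwards [hFev, (tendsto_ep hcov he).eventually_mem (ball_mem_nhds _ hδpos)] with y'' k2 k4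
    rw [D.p_smul, hfgF, k2, hFval _ k4]
  · rw [hpz]

end Vale.Agent.P284.H291.K
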