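import Vale.Agent.P284.H291.K.A4
import Vale.Agent.P284.H553.K8.S

/-!
# P284 (helper291), theorem K, K8a: the leaf chart
-/

open scoped Manifold ContDiff Topology ComplexOrder
open Filter Set Metric

noncomputable section

namespace Vale.Agent.P284.H291.K

open Vale.Agent.P272.K Vale.Agent.P284.H573 Vale.Agent.P284.H619 Vale.Agent.P284.H894
  Vale.Agent.P284.H894.G Vale.Agent.P284.H837 Vale.Agent.P284.H174 Vale.Agent.P284.H174.GD
  Vale.Agent.P284.H212 Vale.Agent.P284.H395 Vale.Agent.P284.H998 Vale.Agent.P284.H998.U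
  Vale.Agent.P284.H553.LB Vale.Agent.P284.H553.K8

variable {n R q m : ℕ} {X E Γ : Type} [TopologicalSpace X] [ChartedSpace (Cm n) X]
  [TopologicalSpace E] [Group Γ] [MulAction Γ E] {H : Type} [NormedAddCommGroup H]
  [InnerProductSpace ℂ H] {p : E → X} {v : E → Chart n X → (Fin R → Cm n) → H} {F : E → Cm q}
  {γ : Cm R → H} {t : Cm R → Cm q}

lemma Sh1.sh0 {y : E} {x : Cm R} (h : Sh1 m p v F γ t y x) : Sh0 p v F γ t y x := by
  obtain ⟨e, b, h1, rfl⟩ := h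
  exact (NFF.shB h1).sh0

/-- the transition map between two points with the normal form -/
lemma Sh1.tr [CompleteSpace H] [IsManifold 𝓘(ℂ, Cm n) ω X] (D : Dt m Γ p v F) {g : Γ}
    {U : H →ₗᵢ[ℂ] H} (hU : IsU p v g U) {f : Cm q → Cm q} (hf : ∀ y, F (g • y) = f (F y)) {y : E}
    {x x' : Cm R} (h : Sh1 m p v F γ t y x)
    (h' : Sh0 p v F γ t (g • y) x') (hγ' : AnalyticAt ℂ γ x') (hi : ImmAt γ x') :
    Tr γ t U f x x' := by
  obtain ⟨e, b, h1, rfl⟩ := h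
  obtain ⟨ξ, hξ⟩ := IsNF.ne h1.nf
  exact tr_of_sh0 D hU hf (NFF.shB h1) (open_of_surj D.gal.cov h1.nf.mem h1.nf.ban h1.nf.bsurj)
    h1.nf.γan hξ h' hγ' hi

lemma NFF.ev' [CompleteSpace H] {y₀ : E} {e : Chart n X} {b : Cm n → Cm R} {γ : Cm R → H}
    {t : Cm R → Cm q} (h : NFF m p v F y₀ e b γ t) (hp : IsCoveringMap p) :
    ∀ᶠ y in 𝓝 y₀, NFF m p v F y e b γ t := by
  have h1 := h.nf.eventually hp.continuous.continuousAt
  have h2 : ContinuousAt (fun y => b (e (p y))) y₀ :=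
    ContinuousAt.comp (g := b) (f := fun y => e (p y)) h.nf.ban.continuousAt
      (tendsto_ep hp h.nf.mem)
  filter_upwards [h1, h2.eventually h.tan.eventually_analyticAt, h.eq.eventually_nhds]
    with y a1 a2 a3
  exact ⟨a1, a2, a3⟩

/-- **the good ball**: the normal form near some point, on a ball in which the value of the sheet is
determined by the point of `X` -/
theorem good_ball [CompleteSpace H] [IsManifold 𝓘(ℂ, Cm n) ω X] (D : Dt m Γ p v F)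
    (hL : LFin Γ m p v F) {y₀ : E} {e : Chart n X} {b : Cm n → Cm R}
    (hN : NFF m p v F y₀ e b γ t) :
    ∃ (b₁ : Cm R) (r : ℝ), 0 < r ∧ (∃ y, NFF m p v F y e b γ t ∧ b (e (p y)) = b₁) ∧
      (∀ x ∈ ball b₁ r, AnalyticAt ℂ γ x ∧ AnalyticAt ℂ t x ∧ ImmAt γ x) ∧
      (∀ x ∈ ball b₁ r, ∀ x' ∈ ball b₁ r, ∀ a : ℂ, γ x' = a • γ x → x' = x) ∧
      ∀ (y : E) (g : Γ), ∀ x ∈ ball b₁ r, ∀ x' ∈ ball b₁ r,
        Sh1 m p v F γ t y x → Sh1 m p v F γ t (g • y) x' → x' = x := by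
  classical
  obtain ⟨S, hSF, hSv, hS⟩ := hL
  obtain ⟨r₁, hr₁, U₀, hU₀, hfin⟩ := hS y₀ e b γ t hN
  set b₀ : Cm R := b (e (p y₀)) with hb₀
  set T : Set (Γ ⧸ S) := {a : Γ ⧸ S | ∃ g : Γ, (g : Γ ⧸ S) = a ∧ ∃ y ∈ U₀, ∃ x ∈ ball b₀ r₁,
          Sh0 p v F γ t (g⁻¹ • y) x} with hT
  obtain ⟨C, -⟩ := exists_pc hN.nf.γan hN.nf.imm one_pos
  -- the starting ball
  have hpt : ∀ᶠ β in 𝓝 b₀, (∃ y, (y ∈ U₀ ∧ NFF m p v F y e b γ t) ∧ b (e (p y)) = β) ∧
      (AnalyticAt ℂ γ β ∧ AnalyticAt ℂ t β ∧ ImmAt γ β) ∧ β ∈ ball b₀ r₁ ∧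
      β ∈ ball b₀ C.r₁ := by
    refine Filter.Eventually.and ?_ ((hN.nf.γan.eventually_analyticAt.and
      (hN.tan.eventually_analyticAt.and (hN.nf.imm.eventually hN.nf.γan))).and
      (Filter.Eventually.and (ball_mem_nhds _ hr₁) (ball_mem_nhds _ C.r₁_pos)))
    rw [hb₀, ← open_of_surj D.gal.cov hN.nf.mem hN.nf.ban hN.nf.bsurj, eventually_map]
    filter_upwards [hU₀, NFF.ev' hN D.gal.cov] with y h1 h2
    exact ⟨y, ⟨h1, h2⟩, rfl⟩
  obtain ⟨r₀, hr₀, hball⟩ := Metric.eventually_nhds_iff_ball.1 hpt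
  choose U hU using fun g : Γ => D.eqv g
  choose f hfan hf using D.per
  obtain ⟨b₁, r, hr, hsub, hsel⟩ := select (t := t) hfin.toFinset C (fun a => U (a.out)⁻¹)
    (fun a => f (a.out)⁻¹) hr₀ (fun z hz => (hball z hz).2.2.2)
  have hb₁ : b₁ ∈ ball b₁ r := mem_ball_self hr
  refine ⟨b₁, r, hr, ?_, fun x hx => (hball x (hsub hx)).2.1, ?_, ?_⟩
  · obtain ⟨y, h1, h2⟩ := (hball b₁ (hsub hb₁)).1
    exact ⟨y, h1.2, h2⟩
  · intro x hx x' hx' a h
    refine C.inj (hball x' (hsub hx')).2.2.2 (hball x (hsub hx)).2.2.2 (a := a) ?_ h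
    rintro rfl
    rw [zero_smul] at h
    exact (hball x' (hsub hx')).2.1.2.2.1 h
  · intro y g x hx x' hx' h h'
    have htr := h.tr D (hU g) (hf g) h'.sh0 (hball x' (hsub hx')).2.1.1 (hball x' (hsub hx')).2.1.2.2
    -- a point of the original neighbourhood
    obtain ⟨y₁, ⟨h1, h2⟩, h3⟩ := (hball x (hsub hx)).1
    have h4 : Sh1 m p v F γ t y₁ x := ⟨e, b, h2, h3⟩
    have h5 := sh0_of_tr D (hU g) (hf g) htr h4.sh0
    set a : Γ ⧸ S := ((g⁻¹ : Γ) : Γ ⧸ S) with ha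
    have haT : a ∈ T := by
      refine ⟨g⁻¹, rfl, y₁, h1, x', (hball x' (hsub hx')).2.2.1, ?_⟩
      rw [inv_inv]
      exact h5
    have hs : g * a.out ∈ S := by
      have h6 : ((g⁻¹ : Γ) : Γ ⧸ S) = ((a.out : Γ) : Γ ⧸ S) := (QuotientGroup.out_eq' a).symm
      have h7 := QuotientGroup.eq.1 h6
      rwa [inv_inv] at h7
    have hg : ∀ y : E, g • y = (g * a.out) • (a.out)⁻¹ • y := by
      intro y
      rw [smul_smul, mul_assoc, mul_inv_cancel, mul_one]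
    have h6 : Sh0 p v F γ t ((a.out)⁻¹ • y₁) x' := by
      refine Sh0.congr_smul D (g := g) ?_ ?_ h5
      · intro y e' he ξ
        rw [hg]
        exact hSv _ hs _ _ (by rw [D.p_smul]; exact he) ξ
      · intro y
        rw [hg]
        exact hSF _ hs _
    have htr2 := h4.tr D (hU (a.out)⁻¹) (hf (a.out)⁻¹) h6 (hball x' (hsub hx')).2.1.1
      (hball x' (hsub hx')).2.1.2.2
    rcases hsel a (hfin.mem_toFinset.2 haT) with h7 | h7
    · exact absurd htr2 (h7 x hx x' hx')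
    · obtain ⟨s, hs'⟩ := h7 x hx
      obtain ⟨φ, -, rfl, hev⟩ := htr2
      obtain ⟨⟨a', ha'⟩, -⟩ := hev.self_of_nhds
      rw [hs'] at ha'
      have hγx : γ x ≠ 0 := (hball x (hsub hx)).2.1.2.2.1
      have hUx : U (a.out)⁻¹ (γ x) ≠ 0 := fun h0 =>
        hγx ((U (a.out)⁻¹).injective (by rw [h0, map_zero]))
      have hs0 : s ≠ 0 := by
        rintro rfl
        rw [zero_smul] at hs'
        exact hUx hs'
      have ha'0 : a' ≠ 0 := by
        rintro rfl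
        rw [zero_smul] at ha'
        rw [ha'] at hs'
        exact hUx hs'
      refine C.inj (hball _ (hsub hx')).2.2.2 (hball x (hsub hx)).2.2.2 (a := a'⁻¹ * s)
        (mul_ne_zero (inv_ne_zero ha'0) hs0) ?_
      rw [mul_smul, ha', inv_smul_smul₀ ha'0]

/-- **K8a**, general form -/
theorem exists_lf [CompleteSpace H] [IsManifold 𝓘(ℂ, Cm n) ω X] (D : Dt m Γ p v F)
    (hN : ∃ y₀ e b γ t, NFF m p v F y₀ e b γ t) (hL : LFin Γ m p v F) :
    ∃ (γ : Cm R → H) (b₀ : Cm R) (r : ℝ) (N : Set X) (β : X → Cm R) (x₀ : X),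
      Lf m p v γ b₀ r N β x₀ := by
  classical
  obtain ⟨y₀, e, b, γ, t, hNF⟩ := hN
  have hv := D.hv
  have hcov := D.gal.cov
  obtain ⟨b₁, r, hr, ⟨y₁, hy₁, hy₁b⟩, han, hinj, huniq⟩ := good_ball D hL hNF
  have hb₁ : b₁ ∈ ball b₁ r := mem_ball_self hr
  set N : Set X := {x | x ∉ Zs p v ∧ ∃ y, p y = x ∧ ∃ z ∈ ball b₁ r, Sh1 m p v F γ t y z} with hNdef
  -- the value
  have hun : ∀ y y' : E, p y = p y' → ∀ z ∈ ball b₁ r, ∀ z' ∈ ball b₁ r,
      Sh1 m p v F γ t y z → Sh1 m p v F γ t y' z' → z' = z := by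
    intro y y' hyy z hz z' hz' h h'
    obtain ⟨g, rfl⟩ := (D.gal.orb y y').1 hyy
    exact huniq y g z hz z' hz' h h'
  have hex : ∀ x : X, ∃ z : Cm R, x ∈ N → ∃ y, p y = x ∧ z ∈ ball b₁ r ∧
      Sh1 m p v F γ t y z := by
    intro x
    by_cases hx : x ∈ N
    · obtain ⟨-, y, hy, z, hz, h⟩ := hx
      exact ⟨z, fun _ => ⟨y, hy, hz, h⟩⟩
    · exact ⟨0, fun h => absurd h hx⟩
  choose β hβ using hex
  have hβeq : ∀ (y : E) (z : Cm R), p y ∈ N → z ∈ ball b₁ r → Sh1 m p v F γ t y z →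
      β (p y) = z := by
    intro y z hy hz h
    obtain ⟨y', h1, h2, h3⟩ := hβ (p y) hy
    exact hun y y' h1.symm z hz _ h2 h h3
  have hZ : ∀ (y : E) (e : Chart n X) (b : Cm n → Cm R), NFF m p v F y e b γ t →
      p y ∉ Zs p v := by
    rintro y e b h ⟨y', hy', hnz⟩
    obtain ⟨ξ, hξ⟩ := IsNF.ne h.nf
    refine hnz ⟨e, by rw [hy']; exact h.nf.mem, ξ, fun h0 => hξ ?_⟩
    have := hv.inv y y' e h.nf.mem hy'.symm ξ
    rw [h0, norm_zero, norm_eq_zero] at this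
    exact this
  -- the local structure
  have hloc : ∀ (y : E) (e : Chart n X) (b : Cm n → Cm R), NFF m p v F y e b γ t →
      b (e (p y)) ∈ ball b₁ r → ∀ᶠ y' in 𝓝 y, p y' ∈ N ∧ β (p y') = b (e (p y')) := by
    intro y e b h hb
    have h2 : ContinuousAt (fun y => b (e (p y))) y :=
      ContinuousAt.comp (g := b) (f := fun y => e (p y)) h.nf.ban.continuousAt
        (tendsto_ep hcov h.nf.mem)
    filter_upwards [NFF.ev' h hcov, h2.eventually_mem (isOpen_ball.mem_nhds hb)] with y' k1 k2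
    have k3 : p y' ∈ N := ⟨hZ y' e b k1, y', rfl, _, k2, e, b, k1, rfl⟩
    exact ⟨k3, hβeq y' _ k3 k2 ⟨e, b, k1, rfl⟩⟩
  have hmap : ∀ y : E, map p (𝓝 y) = 𝓝 (p y) := fun y => hcov.isLocalHomeomorph.map_nhds_eq y
  have hlocX : ∀ (y : E) (e : Chart n X) (b : Cm n → Cm R), NFF m p v F y e b γ t →
      b (e (p y)) ∈ ball b₁ r → ∀ᶠ x' in 𝓝 (p y), x' ∈ N ∧ β x' = b (e x') := by
    intro y e b h hb
    rw [← hmap y, eventually_map]
    exact hloc y e b h hb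
  -- the normal form in a given chart
  have hchart : ∀ x ∈ N, ∃ y, p y = x ∧ ∀ e' : Chart n X, At e' x →
      ∃ b' : Cm n → Cm R, NFF m p v F y e' b' γ t ∧ b' (e' x) = β x ∧
        (fun z => β (e'.symm z)) =ᶠ[𝓝 (e' x)] b' := by
    intro x hx
    obtain ⟨y, rfl, hz, e, b, h, hb⟩ := hβ x hx
    refine ⟨y, rfl, fun e' he' => ?_⟩
    have h1 := nff_chg h hv hcov he'
    have h2 : b (e (e'.symm (e' (p y)))) = β (p y) := by rw [he'.left_inv, hb]
    refine ⟨_, h1, h2, ?_⟩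
    have h3 := hlocX y e' _ h1 (by rw [h2]; exact hz)
    have h4 : Tendsto e'.symm (𝓝 (e' (p y))) (𝓝 (p y)) := by
      have := (e'.continuousAt_symm he'.mem_target).tendsto
      rwa [he'.left_inv] at this
    filter_upwards [h4.eventually h3, e'.open_target.mem_nhds he'.mem_target] with z k1 k2
    rw [k1.2]
    show b (e (e'.symm (e' (e'.symm z)))) = b (e (e'.symm z))
    rw [e'.right_inv k2]
  refine ⟨γ, b₁, r, N, β, p y₁, ?_⟩
  have hy₁N : p y₁ ∈ N := ⟨hZ y₁ e b hy₁, y₁, rfl, b₁, hb₁, e, b, hy₁, hy₁b⟩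
  refine
    { pos := hr
      γan := fun x hx => (han x hx).1
      imm := fun x hx => (han x hx).2.2
      inj := fun x hx a h => hinj b₁ hb₁ x hx a h
      isOpen := ?_
      off := fun x hx => hx.1
      maps := fun x hx => (hβ x hx).choose_spec.2.1
      an := ?_
      nf := ?_
      closed := ?_
      mem := hy₁N
      eq := hβeq y₁ b₁ hy₁N hb₁ ⟨e, b, hy₁, hy₁b⟩ }
  · rw [isOpen_iff_mem_nhds]
    intro x hx
    obtain ⟨y, rfl, hz, e, b, h, hb⟩ := hβ x hx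
    filter_upwards [hlocX y e b h (by rw [hb]; exact hz)] with x' hx' using hx'.1
  · intro x hx e' he'
    obtain ⟨y, rfl, h⟩ := hchart x hx
    obtain ⟨b', h1, -, h3⟩ := h e' he'
    exact h1.nf.ban.congr h3.symm
  · intro x hx
    obtain ⟨y, rfl, h⟩ := hchart x hx
    refine ⟨y, rfl, fun e' he' => ?_⟩
    obtain ⟨b', h1, -, h3⟩ := h e' he'
    have h4 : ∀ᶠ y' in 𝓝 y, (fun z => β (e'.symm z)) =ᶠ[𝓝 (e' (p y'))] b' :=
      (tendsto_ep hcov he').eventually h3.eventually_nhds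
    filter_upwards [h1.nf.nf, h4, at_ev hcov he'] with y' k1 k2 k3 ξ
    have k4 : β (p y') = b' (e' (p y')) := by
      have := k2.self_of_nhds
      simp only [k3.left_inv] at this
      exact this
    rw [k1, k4]
    show _ = (Matrix.of fun i j => fderiv ℂ (fun z => β (e'.symm z)) (e' (p y')) (ξ j) i).det ^ m •
      γ (b' (e' (p y')))
    rw [k2.fderiv_eq]
  · intro K hKsub hK x hx hcl
    obtain ⟨y, rfl⟩ := D.gal.surj x
    have hNZ : NZ p v y := nz_of_notMem hx rfl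
    -- a limit value
    obtain ⟨x₀, hx₀K, hx₀⟩ : ∃ x₀ ∈ K, ∀ N' ∈ 𝓝 x₀, ∃ᶠ x' in 𝓝 (p y), x' ∈ N ∧ β x' ∈ N' := by
      by_contra hcon
      push Not at hcon
      have h1 : ∀ᶠ x' in 𝓝 (p y), ∀ z ∈ K, ¬ (x' ∈ N ∧ β x' = z) := by
        refine hK.eventually_forall_of_forall_eventually fun z hz => ?_
        obtain ⟨N', hN', h2⟩ := hcon z hz
        filter_upwards [h2.prod_nhds hN'] with a ha
        rintro ⟨h3, h4⟩
        exact ha.1 h3 (by rw [h4]; exact ha.2)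
      rw [mem_closure_iff_frequently] at hcl
      obtain ⟨x', h3, h4⟩ := (hcl.and_eventually h1).exists
      exact h4 _ h3.2 ⟨h3.1, rfl⟩
    have hx₀b : x₀ ∈ ball b₁ r := hKsub hx₀K
    have key : ∀ N'' ∈ 𝓝 x₀, ∃ (g : Γ), ∃ x'' ∈ N'', Sh1 m p v F γ t (g • y) x'' := by
      intro N'' hN''
      obtain ⟨N', hN', hev⟩ := cont_unif D hNZ (han x₀ hx₀b).1 (han x₀ hx₀b).2.2
        (han x₀ hx₀b).2.1 hN''
      have h1 := hx₀ N' hN'
      rw [← hmap y, frequently_map] at h1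
      obtain ⟨y', ⟨h2, h3⟩, h4⟩ := (h1.and_eventually hev).exists
      obtain ⟨y'', h5, h6, h7⟩ := hβ _ h2
      obtain ⟨g, rfl⟩ := (D.gal.orb y' y'').1 h5.symm
      obtain ⟨x'', h8, h9⟩ := h4 g _ h3 h7
      exact ⟨g, x'', h8, h9⟩
    obtain ⟨g₀, x₂, hx₂, hsh₂⟩ := key (ball b₁ r) (isOpen_ball.mem_nhds hx₀b)
    have hx₂₀ : x₂ = x₀ := by
      by_contra hne
      obtain ⟨g, x₃, hx₃, hsh₃⟩ := key (ball b₁ r ∩ {x₂}ᶜ)
        (inter_mem (isOpen_ball.mem_nhds hx₀b) (isOpen_compl_singleton.mem_nhds (Ne.symm hne)))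
      have h1 := hun (g₀ • y) (g • y) (by rw [D.p_smul, D.p_smul]) x₂ hx₂ x₃ hx₃.1 hsh₂ hsh₃
      exact hx₃.2 h1
    subst hx₂₀
    have h1 : p (g₀ • y) = p y := D.p_smul g₀ y
    have h2 : p (g₀ • y) ∈ N := ⟨by rw [h1]; exact hx, g₀ • y, rfl, x₂, hx₂, hsh₂⟩
    have h3 := hβeq _ _ h2 hx₂ hsh₂
    rw [h1] at h2 h3
    exact ⟨h2, by rw [h3]; exact hx₀K⟩

/-- **K8a** -/
theorem lfStmt : LfStmt := by
  intro n X _ _ _ _ _ _ E Γ _ _ _ _ p hG q F c hF hper H _ _ _ R m hR hm v hv heqv hN hL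
  exact exists_lf ⟨hR, hm, hG, hv, heqv, hF, fun g => ⟨fun x => x + c g,
    fun x => analyticAt_id.add analyticAt_const, hper g⟩⟩ hN hL

/-- **K8a**, for `F` which is only equivariant up to affine transformations -/
def LfStmtN : Prop :=
  ∀ (n : ℕ) (X : Type) [TopologicalSpace X] [T2Space X] [CompactSpace X] [ConnectedSpace X]
    [ChartedSpace (Cm n) X] [IsManifold 𝓘(ℂ, Cm n) ω X]
    (E Γ : Type) [TopologicalSpace E] [ConnectedSpace E] [Group Γ] [MulAction Γ E]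
    (p : E → X) (_ : IsGalois Γ p)
    (q : ℕ) (F : E → Cm q)
    (_ : ∀ (y : E) (e : Chart n X), At e (p y) → ∃ f : Cm n → Cm q,
      (∀ᶠ y' in 𝓝 y, F y' = f (e (p y'))) ∧ AnalyticAt ℂ f (e (p y)))
    (_ : ∀ g : Γ, ∃ (A : Cm q ≃L[ℂ] Cm q) (b : Cm q), ∀ y, F (g • y) = A (F y) + b)
    (H : Type) [NormedAddCommGroup H] [InnerProductSpace ℂ H] [CompleteSpace H]
    (R m : ℕ) (_ : 1 ≤ R) (_ : 1 ≤ m) (v : E → Chart n X → (Fin R → Cm n) → H)
    (_ : HForm n R m p H v) (_ : Eqv Γ p v)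
    (_ : ∃ y₀ e b γ t, NFF m p v F y₀ e b γ t) (_ : LFin Γ m p v F),
    ∃ (γ : Cm R → H) (b₀ : Cm R) (r : ℝ) (N : Set X) (β : X → Cm R) (x₀ : X),
      Lf m p v γ b₀ r N β x₀

theorem lfStmtN : LfStmtN := by
  intro n X _ _ _ _ _ _ E Γ _ _ _ _ p hG q F hF hper H _ _ _ R m hR hm v hv heqv hN hL
  refine exists_lf ⟨hR, hm, hG, hv, heqv, hF, fun g => ?_⟩ hN hL
  obtain ⟨A, b, h⟩ := hper g
  exact ⟨fun x => A x + b, fun x => ((A : Cm q →L[ℂ] Cm q).analyticAt x).add analyticAt_const, h⟩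

end Vale.Agent.P284.H291.K
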